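import Vale.Agent.P194.MathlibUsed

namespace Vale.Agent.P194

/-- Every nontrivial finitely generated subgroup of `N` has a nontrivial homomorphism
to the cyclic group of order `p`. -/
def LocallyPIndicable (p : ℕ) (N : Type*) [Group N] : Prop :=
  ∀ H : Subgroup N, H.FG → H ≠ ⊥ → ∃ φ : H →* Multiplicative (ZMod p), φ ≠ 1

end Vale.Agent.P194
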