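import Vale.Agent.P194.MathlibUsed

namespace Vale.Agent.P194

/-- `G` is sofic: for every finite `F` and `ε > 0` there is a map `φ` from `G` to the permutations
of a nonempty finite set which is multiplicative on `F` up to a proportion `ε` of points, and for
which every nontrivial element of `F` fixes at most a proportion `ε` of points. -/
def IsSofic (G : Type*) [Group G] : Prop :=
  ∀ (F : Finset G) (ε : ℝ), 0 < ε →
    ∃ (d : ℕ) (φ : G → Equiv.Perm (Fin d)), 0 < d ∧
      (∀ g ∈ F, ∀ h ∈ F,
        (({x | φ g (φ h x) ≠ φ (g * h) x} : Finset (Fin d)).card : ℝ) ≤ ε * d) ∧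
      (∀ g ∈ F, g ≠ 1 → (({x | φ g x = x} : Finset (Fin d)).card : ℝ) ≤ ε * d)

end Vale.Agent.P194
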